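import Vale.Agent.P352X.R.JC.A1
import Vale.Agent.P352X.R.CTX

/-!
# P352X, row JC: the stress tensor, the group `S0`, the algebras of the wedges
-/

set_option linter.all false

noncomputable section

open MeasureTheory Filter Topology Set
open scoped SchwartzMap ComplexConjugate

namespace Vale.Agent.P352X.JCa

open Vale.Agent.P352 Vale.Agent.P352.GF Vale.Agent.P352.BW
open Vale.Agent.P352.H246 Vale.Agent.P352.H496 Vale.Agent.P352.H755 Vale.Agent.P352.H15
open Vale.Agent.P352.BW.T (Ten op tp cp rq cm Afs)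
open Vale.Agent.P352.BW.H49 (Adj)
open Vale.Agent.P132 (ModData jconj)
open UniformSpace (Completion)

/-! ### pairs of null vectors -/

/-- a Lorentz transformation maps the rays of `a`, `b` to the rays of `a'`, `b'` -/
def Rl (a b a' b' : V) : Prop := ∃ (L : Ix → V) (s t : ℝ), IsLor L ∧ 0 < s ∧ 0 < t ∧
  sim 1 L 0 a = s • a' ∧ sim 1 L 0 b = t • b'

variable {a b a' b' a'' b'' : V}

lemma Rl.swap (h : Rl a b a' b') : Rl b a b' a' :=
  let ⟨L, s, t, h1, h2, h3, h4, h5⟩ := h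
  ⟨L, t, s, h1, h3, h2, h5, h4⟩

lemma Rl.trans (h : Rl a b a' b') (h' : Rl a' b' a'' b'') : Rl a b a'' b'' := by
  obtain ⟨L, s, t, h1, h2, h3, h4, h5⟩ := h
  obtain ⟨L', s', t', k1, k2, k3, k4, k5⟩ := h'
  refine ⟨cm L L', _, _, ue_lor k1 h1, mul_pos h2 k2, mul_pos h3 k3, ?_, ?_⟩
  · rw [T.sim_cm, h4, simL_smul, k4, smul_smul]
  · rw [T.sim_cm, h5, simL_smul, k5, smul_smul]

lemma step (ha : IsNull a) (hb : IsNull b) (hb' : IsNull b') (h : 0 < GF.mdot a b)
    (h' : 0 < GF.mdot a b') : Rl a b a b' := by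
  set r := GF.mdot a b / GF.mdot a b' with hr
  set w := (2 * GF.mdot a b)⁻¹ • (r • b' - b) with hw
  have h0 : GF.mdot a w = 0 := by
    rw [hw, md_smul, md_sub, md_smul, hr]
    field_simp
    ring
  have h1 : GF.mdot w b = (2 * GF.mdot a b)⁻¹ * (r * GF.mdot b b') := by
    rw [md_comm, hw, md_smul, md_sub, md_smul, hb.1, sub_zero]
  have h2 : GF.mdot w b' = -((2 * GF.mdot a b)⁻¹ * GF.mdot b b') := by
    rw [md_comm, hw, md_smul, md_sub, md_smul, hb'.1, md_comm b' b]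
    ring
  have h3 : GF.mdot w w * GF.mdot a b = -GF.mdot w b := by
    nth_rewrite 2 [hw]
    rw [md_smul, md_sub, md_smul, h1, h2]
    field_simp
    ring
  refine ⟨H746.nrt a w, 1, r, H746.isLor_nrt ha h0, one_pos, div_pos h h',
    by rw [H746.nrt_fix ha h0, one_smul], ?_⟩
  rw [H746.sim_nrt, mul_assoc 2, h3]
  nth_rewrite 2 [hw]
  rw [smul_inv_smul₀ (by positivity)]
  module

lemma ex_null (ha : IsNull a) : ∃ c, IsNull c ∧ 0 < GF.mdot va c ∧ 0 < GF.mdot a c := by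
  by_cases h : 0 < al a
  · exact ⟨vb, null_vb, by rw [md_ab]; exact one_pos, by rwa [md_vb']⟩
  obtain ⟨h1, h2, h3⟩ := (cone_iff a).1 ⟨ha.2.le, ha.1.ge⟩
  have h4 : al a = 0 := le_antisymm (not_lt.1 h) h1
  have h5 : tx a = 0 := (d2_eq_zero _).1 (le_antisymm (by simpa [h4] using h3) (d2_nonneg _))
  have h6 := ha.2.trans_eq (time_eq a)
  refine ⟨pt (1 / 2) 1 (e2 0), ⟨?_, ?_⟩, by simp [md_va], ?_⟩
  · simp [mdot_null]
    norm_num
  · simp [time_eq]
  · simp [mdot_null, h4, h5]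
    linarith

lemma rl (ha : IsNull a) (hb : IsNull b) (h : 0 < GF.mdot a b) : Rl va vb a b := by
  obtain ⟨c, h1, h2, h3⟩ := ex_null ha
  exact ((step null_va null_vb h1 (by rw [md_ab]; exact one_pos) h2).trans
    (step h1 null_va ha (by rwa [md_comm]) (by rwa [md_comm])).swap).trans (step ha h1 hb h3 h)

lemma wdg_img {L : Ix → V} {s t : ℝ} (hL : IsLor L) (hs : 0 < s) (ht : 0 < t)
    (h1 : sim 1 L 0 a = s • a') (h2 : sim 1 L 0 b = t • b') (y : V) :
    sim 1 L y '' Wdg a b 0 = Wdg a' b' y := by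
  have e : ∀ x, x ∈ Wdg a b 0 ↔ sim 1 L y x ∈ Wdg a' b' y := fun x => by
    show _ ∧ _ ↔ _ ∧ _
    rw [HM.sim_at 1 L y, add_sub_cancel_right, sub_zero, ← mdot_sim hL a, ← mdot_sim hL b, h1, h2,
      md_comm (s • a'), md_comm (t • b'), md_smul, md_smul, md_comm _ a', md_comm _ b',
      mul_pos_iff_of_pos_left ht, ← neg_pos, ← mul_neg, mul_pos_iff_of_pos_left hs, neg_pos]
  refine subset_antisymm (by rintro _ ⟨x, hx, rfl⟩; exact (e x).1 hx) fun x hx => ?_
  have k : sim 1 L y (sim 1 (linv L) 0 (x - y)) = x := by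
    rw [HM.sim_at 1 L y, sim_linv hL, sub_add_cancel]
  exact ⟨_, (e _).2 (k.symm ▸ hx), k⟩

/-- **the Poincare group is transitive on the wedges** -/
theorem trans (ha : IsNull a) (hb : IsNull b) (h : 0 < GF.mdot a b) : ∃ L, IsLor L ∧ ∀ y,
    sim 1 L y '' Wdg va vb 0 = Wdg a b y ∧ sim 1 L y '' Wdg vb va 0 = Wdg b a y :=
  let ⟨L, _, _, h1, h2, h3, h4, h5⟩ := rl ha hb h
  ⟨L, h1, fun y => ⟨wdg_img h1 h2 h3 h4 h5 y, wdg_img h1 h3 h2 h5 h4 y⟩⟩

lemma jr_wdg : jr '' Wdg va vb 0 = Wdg vb va 0 := by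
  have e : ∀ x, x ∈ Wdg va vb 0 ↔ jr x ∈ Wdg vb va 0 := fun x => by
    show _ ∧ _ ↔ _ ∧ _
    simp [md_va, md_vb, and_comm]
  exact subset_antisymm (by rintro _ ⟨x, hx, rfl⟩; exact (e x).1 hx) fun x hx =>
    ⟨jr x, (e _).2 (by rwa [jr_jr]), jr_jr x⟩

variable {D : Type*} [NormedAddCommGroup D] [InnerProductSpace ℂ D] (c : Ctx D)

lemma alg_sim {s : ℝ} {L : Ix → V} (hs : 0 < s) (hL : IsLor L) (y : V) {O : Set V}
    (h : ∀ X ∈ c.N O, jconj c.J X ∈ c.N (jr '' O)) :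
    ∀ X ∈ c.N (sim s L y '' O), jconj c.J X ∈ c.N (jr '' (sim s L y '' O)) := by
  intro X hX
  have u := Grp.uni c.hN.toRep s L y
  have u' := Grp.uni c.hN.toRep s (jL L) (jr y)
  set U := Ug c.Q s L y
  set U' := Ug c.Q s (jL L) (jr y)
  have e : ∀ z, c.J (U z) = U' (c.J z) := fun z => ug c s L y z hs hL
  have u1 : ∀ z, U (star U z) = z := fun z =>
    congrArg (fun T : Completion D →L[ℂ] Completion D => T z) u.2
  have u2 : ∀ z, star U' (U' z) = z := fun z =>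
    congrArg (fun T : Completion D →L[ℂ] Completion D => T z) u'.1
  have h1 : star U * X * U ∈ c.N O := (Grp.alg c.hN hs hL y O _).2 (by
    rwa [← mul_assoc, ← mul_assoc, u.2, one_mul, mul_assoc, u.2, mul_one])
  have h2 := (Grp.alg c.hN hs (isLor_jL hL) (jr y) _ _).1 (h _ h1)
  have e1 : sim s (jL L) (jr y) '' (jr '' O) = jr '' (sim s L y '' O) := by
    simp only [image_image, sim_jL]
  have e2 : ∀ z, U (c.J (star U' z)) = c.J z := fun z => by
    rw [← c.E.J_J z, ← u1 (c.J z), e, u2, c.E.J_J, ← e, c.E.J_J]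
  rw [e1] at h2
  convert h2 using 1
  ext z
  show c.J (X (c.J z)) = U' (c.J (star U (X (U (c.J (star U' z))))))
  rw [e2, ← e, u1]

theorem alg_of (h : (c.N (Wdg va vb 0)).commutant = c.N (Wdg vb va 0)) (a b y : V) (ha : IsNull a)
    (hb : IsNull b) (hab : 0 < GF.mdot a b) :
    ∀ X ∈ c.N (Wdg a b y), jconj c.J X ∈ c.N (jr '' Wdg a b y) := by
  obtain ⟨L, h1, h2⟩ := trans ha hb hab
  rw [← (h2 y).1]
  exact alg_sim c one_pos h1 y fun X hX => by rw [jr_wdg, ← h]; exact c.E.J_mem X hX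

/-! ### the null rotations -/

theorem ga (w : R2) (z : Completion D) : c.J (Ga c.Q w z) = Ga c.Q (-w) (c.J z) := by
  rw [Ga, ug c _ _ _ _ one_pos (Grp.lga w).1, jr_zero, Ga]
  congr 2
  refine T.mat_ext fun x => ?_
  have h := sim_jL (H746.nrt va (tv ((1 / 2 : ℝ) • w))) 1 0 (jr x)
  rw [jr_jr, jr_zero] at h
  rw [h, (Grp.lga w).2, (Grp.lga (-w)).2]
  refine null_ext ?_ (by simp) (by simp)
  simp [d2_neg, d2_neg_l]
  ring

theorem s0 (t : ℝ) (z : Completion D) : c.J (c.S0 t z) = c.S0 (-t) (c.J z) := by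
  have h := c.a3.intertwine_anti CTXp.pair3 c.a3.toCalc measurable_id
    c.J.toContinuousLinearEquiv.toContinuousLinearMap (v := z) (w := c.J z) (fun y => ?_)
    (SN.Bd.expI (r := fun k : P3 => t * (d2 k.2 k.2 / k.1)) (by fun_prop))
  · refine h.trans ?_
    rw [Ctx.S0]
    congr 2
    funext k
    rw [← Complex.exp_conj, map_mul, Complex.conj_I, Complex.conj_ofReal]
    congr 1
    push_cast
    simp
  · have e : (fun p => conj (SN.ch pr3 y (id p))) = SN.ch pr3 (-y) := funext fun p => by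
      rw [SN.ch, SN.ch, ← Complex.exp_conj, map_mul, Complex.conj_I, Complex.conj_ofReal]
      congr 1
      simp [pr3, d2_neg]
      ring
    rw [e, c.a3.Phi_ch]
    show c.J (Ut c.Q _ (Ga c.Q _ z)) = _
    rw [ut, ga]
    congr 2
    exact null_ext (by simp) (by simp) (by simp)

/-! ### the stress tensor -/

lemma ten_T : Ten c.Q 2 fun μ => c.T (μ 0) (μ 1) := by
  refine ⟨fun μ => Grp.T_fld c.hT _ _, fun μ L f v hL hf => ?_⟩
  rw [c.hT.cov _ _ 1 L 0 f v one_pos hL hf, ← (finTwoArrowEquiv Ix).symm.sum_comp,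
    Fintype.sum_prod_type]
  simp [finTwoArrowEquiv, Fin.prod_univ_two]

lemma adj_T : Adj (fun μ : Fin 2 → Ix => c.T (μ 0) (μ 1)) fun μ => c.T (μ 0) (μ 1) := by
  intro a f v w hf
  rw [op, op, sum_inner, inner_sum]
  exact Finset.sum_congr rfl fun μ _ => by
    rw [inner_smul_left, inner_smul_right, c.hT.herm _ _ f v w hf]

/-- **`J T(f) J`** on the domain -/
theorem jt (m n : Ix) {f : Fn} (hf : GF.IsTest f) {v v' : D} (hv : c.J v = v') :
    c.J (c.T m n f v : D) =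
      (((sj m * sj n : ℝ) : ℂ) • c.T m n (bar fun z => f (jr z)) v' : D) := by
  classical
  obtain ⟨g, rfl⟩ := hf
  obtain ⟨-, u, -, -, h1, -, h2⟩ := ST.exists_cut g
  let e := T.eqv rj rj (fun x => by rw [sim_rj, sim_rj, jr_jr]) fun x => by
    rw [sim_rj, sim_rj, jr_jr]
  let B : Sch → Sch := fun g => SchwartzMap.postcompCLM (𝕜 := ℝ) (Complex.conjCLE : ℂ →L[ℝ] ℂ)
    (SchwartzMap.compCLMOfContinuousLinearEquiv ℂ e g)
  have hB : ∀ g, ev (B g) = bar fun z => ev g (jr z) := fun g =>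
    funext fun z => congrArg (fun x => star (g x)) (sim_rj z)
  have cT := fun v => c.Q.cont _ v (Grp.T_fld c.hT m n)
  have cc := Completion.continuous_coe D
  refine tendsto_nhds_unique ((c.J.continuous.comp (cc.comp (cT v))).tendsto g |>.comp h2) ?_
  rw [← hB]
  refine ((cc.comp (((cT v').comp (show Continuous B by fun_prop)).const_smul
    ((sj m * sj n : ℝ) : ℂ))).tendsto g |>.comp h2).congr fun i => ?_
  have k := key1 2 _ _ (Pi.single ![m, n] 1) (ev (u i)) v v' (ten_T c) (ten_T c) (adj_T c)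
    ⟨⟨_, rfl⟩, h1 i, subset_univ _⟩ hv
  rw [T.op_single, jo, op, Finset.sum_eq_single ![m, n], tp_rj, cp_rj] at k
  · refine Eq.trans ?_ k.symm
    simp [hB]
    rfl
  · intro ν _ h
    simp [tp_rj, Pi.single_eq_of_ne h]
  · simp

theorem one (m n : Ix) (f : Fn) (hf : GF.IsTest f) : c.J (c.T m n f c.Q.vac : D) =
    ((sj m * sj n : ℝ) : ℂ) • ((c.T m n (bar fun z => f (jr z)) c.Q.vac : D) : Completion D) := by
  rw [jt c m n hf c.E.J_xi, Completion.coe_smul]

theorem two (m n k l : Ix) (f g : Fn) (hf : GF.IsTest f) (hg : GF.IsTest g) :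
    c.J (c.T m n f (c.T k l g c.Q.vac) : D) =
      ((sj m * sj n * (sj k * sj l) : ℝ) : ℂ) • ((c.T m n (bar fun z => f (jr z))
        (c.T k l (bar fun z => g (jr z)) c.Q.vac) : D) : Completion D) := by
  have t : GF.IsTest fun z => f (jr z) := cp_rj f ▸ test_jr hf
  have e : ∀ (a : ℂ) v, c.T m n (bar fun z => f (jr z)) (a • v) =
      a • c.T m n (bar fun z => f (jr z)) v := fun a v => ext_inner_left ℂ fun w => by
    rw [← c.hT.herm m n _ _ _ t, inner_smul_right, inner_smul_right, c.hT.herm m n _ _ _ t]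
  rw [jt c m n hf (jt c k l hg c.E.J_xi), e, smul_smul, Completion.coe_smul, ← Complex.ofReal_mul]

end Vale.Agent.P352X.JCa
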