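import Vale.Agent.P352X.Api3a
import Vale.Agent.P352X.R.GRP.C
import Vale.Agent.P352.BW.H49.Or
import Vale.Agent.P352.BW.T.Tg

/-!
# P352X, row JC: the modular conjugation of the wedge and the similitudes
-/

set_option linter.all false

noncomputable section

open MeasureTheory Filter Topology Set
open scoped SchwartzMap ComplexConjugate

namespace Vale.Agent.P352X.JCa

open Vale.Agent.P352 Vale.Agent.P352.GF Vale.Agent.P352.BW
open Vale.Agent.P352.H246 Vale.Agent.P352.H496 Vale.Agent.P352.H755 Vale.Agent.P352.H15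
open Vale.Agent.P352.BW.T (Ten op tp cp rq cm Afs)
open Vale.Agent.P352.BW.H49 (Adj)
open Vale.Agent.P132 (ModData jconj)
open UniformSpace (Completion)

/-! ### the reflection -/

lemma sim_jL (L : Ix → V) (s : ℝ) (a z : V) : sim s (jL L) (jr a) (jr z) = jr (sim s L a z) := by
  funext n
  have e : ∀ m, jr z m * jL L m n = sj n * (z m * L m n) := fun m => by
    rw [jr_apply, jL]
    linear_combination sj n * z m * L m n * sj_sq m
  simp only [sim, e, ← Finset.mul_sum]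
  rw [jr_apply, jr_apply, sim]
  ring

lemma jL_eq (L : Ix → V) (m : Ix) : jL L m = sj m • jr (L m) := by
  funext n
  rw [Pi.smul_apply, jr_apply, jL, smul_eq_mul, mul_assoc]

lemma isLor_jL {L : Ix → V} (h : IsLor L) : IsLor (jL L) := by
  refine ⟨fun m n => ?_, ?_, ?_⟩
  · rw [jL_eq, jL_eq, md_smul, md_comm, md_smul, md_jr, md_comm, h.1, bas]
    split_ifs with e
    · rw [e, ← mul_assoc, sj_sq, one_mul]
    · simp
  · rw [jL, sj_sq, one_mul]
    exact h.2.1
  · have e : Matrix.of (jL L) = Matrix.diagonal sj * Matrix.of L * Matrix.diagonal sj := by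
      ext m n
      simp only [Matrix.mul_diagonal, Matrix.diagonal_mul, Matrix.of_apply, jL]
      ring
    have e2 : Matrix.det (Matrix.of L) = 1 := h.2.2
    show Matrix.det (Matrix.of (jL L)) = 1
    rw [e, Matrix.det_mul, Matrix.det_mul, e2, Matrix.det_diagonal]
    simp [Fin.prod_univ_four, sj]

theorem lor (L : Ix → V) (h : IsLor L) :
    IsLor (jL L) ∧ ∀ s a z, sim s (jL L) (jr a) (jr z) = jr (sim s L a z) :=
  ⟨isLor_jL h, sim_jL L⟩

lemma jr_zero : jr 0 = 0 := jrL.map_zero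

lemma jL_one : jL GF.one = GF.one := by
  funext m n
  rw [jL, GF.one, bas]
  split_ifs with e
  · rw [e, sj_sq, one_mul]
  · simp

/-- the matrix of the reflection -/
abbrev rj : Ix → V := rq va vb

lemma sim_rj (z : V) : sim 1 rj 0 z = jr z := by
  rw [rj, rq, sim_bst, md_va, md_vb]
  refine null_ext ?_ ?_ ?_ <;> simp <;> ring

lemma cp_rj (f : Fn) : cp rj f = fun z => f (jr z) := funext fun z => congrArg f (sim_rj z)

lemma cm_rj (L : Ix → V) : cm (jL L) rj = cm rj L := by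
  refine T.mat_ext fun x => ?_
  have h := sim_jL L 1 0 (jr x)
  rw [jr_jr, jr_zero] at h
  rw [T.sim_cm, T.sim_cm, sim_rj, sim_rj, h, jr_jr]

lemma rj_apply (m n : Ix) : rj m n = sj m * GF.one m n := by
  have h : rj m n = sim 1 rj 0 (bas m 1) n := by simp [sim, bas]
  rw [h, sim_rj, jr_apply, GF.one, bas]
  split_ifs with e
  · rw [e]
  · simp

lemma tp_rj {k : ℕ} (c : (Fin k → Ix) → ℂ) (ν : Fin k → Ix) :
    tp rj c ν = ((∏ i, sj (ν i) : ℝ) : ℂ) * c ν := by
  rw [← congrFun (T.tp_one c) ν]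
  simp only [tp, rj_apply, Finset.prod_mul_distrib, Finset.mul_sum, Complex.ofReal_mul, mul_assoc]

lemma in_sim {s : ℝ} {L : Ix → V} (hs : 0 < s) (hL : IsLor L) (a : V) {O O' : Set V} {f : Fn}
    (hf : In O f) (h : ∀ x, sim s L a x ∈ O → x ∈ O') : In O' fun x => f (sim s L a x) := by
  let e : V ≃ₜ V := (H755.simE s L hs hL).toContinuousLinearEquiv.toHomeomorph.trans
    (Homeomorph.addRight a)
  have he : (fun x => f (sim s L a x)) = f ∘ e := funext fun x => congrArg f (by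
    show _ = H755.simE s L hs hL x + a
    rw [H755.simE_apply, HM.sim_at s L a])
  refine ⟨Grp.test_sim hs hL a hf.1, he ▸ hf.2.1.comp_homeomorph _, ?_⟩
  rw [he, tsupport_comp_eq_preimage]
  intro x hx
  refine h x (hf.2.2 ?_)
  rwa [HM.sim_at s L a, ← H755.simE_apply hs hL]

/-! ### one field operators -/

variable {D : Type*} [NormedAddCommGroup D] [InnerProductSpace ℂ D]

/-- `J X J = Y` on the domain, if `J X* ξ = Y* ξ` -/
lemma anti {M : VonNeumannAlgebra (Completion D)} {ξ : D} (E : ModData M (ξ : Completion D))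
    {X X' Y Y' : D → D} (hX : Afs M X X') (hY : Afs M.commutant Y Y')
    (h : E.J (X' ξ : D) = (Y' ξ : D)) {v v' : D} (hv : E.J v = v') :
    E.J (X v : D) = (Y v' : D) := by
  refine E.cyc.eq_of_inner_right ℂ ?_
  rintro _ ⟨Z, hZ, rfl⟩
  have e : ∀ w, inner ℂ (Z ξ) w = inner ℂ (ξ : Completion D) (star Z w) := fun w => by
    rw [ContinuousLinearMap.star_eq_adjoint, ContinuousLinearMap.adjoint_inner_right]
  have h1 := hY.2 (star Z) (by rw [M.commutant_commutant]; exact star_mem hZ) v' ξ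
  have h2 := hX.2 _ (E.J_mem _ (star_mem hZ)) v ξ
  rw [P132.jconj_apply, P132.jconj_apply, E.inner_J_right, E.inner_J_right ξ, E.J_xi, h, hv] at h2
  rw [e, e, ← h1, ← inner_conj_symm, ← h2, inner_conj_symm]

variable {Q : Theory D} {A : (V → V) → D → D} {k : ℕ} {Φ Ψ : (Fin k → Ix) → Fld D}
  {a : (Fin k → Ix) → ℂ} {f : Fn} {L : Ix → V}

lemma U_split (R : Rep Q A) {s : ℝ} (hs : 0 < s) (hL : IsLor L) (y : V) (v : D) :
    Q.U 1 GF.one y (Q.U s L 0 v) = Q.U s L y v := by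
  rw [R.mul 1 GF.one y s L 0 v one_pos hs H496.isLor_one hL]
  simp only [sim_one', add_zero, zero_add, one_mul]

lemma op_cov (R : Rep Q A) (hΦ : Ten Q k Φ) (a : (Fin k → Ix) → ℂ) (hL : IsLor L) (y : V)
    (hf : GF.IsTest f) (v : D) : op Φ a f (Q.U 1 L y v) =
      Q.U 1 L y (op Φ (tp L a) (fun x => f (sim 1 L y x)) v) := by
  have e : (fun x => f (sim 1 L y x)) = cp L fun x => f (sim 1 GF.one y x) :=
    funext fun x => by rw [cp, sim_one', HM.sim_at 1 L y]
  rw [← U_split R one_pos hL, ← U_split R one_pos hL y, e,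
    ← T.cov_of hΦ a hL (Grp.test_sim one_pos H496.isLor_one y hf), op, op,
    H246.U_sum one_pos H496.isLor_one]
  exact Finset.sum_congr rfl fun μ _ => by
    rw [U_smul one_pos H496.isLor_one, Q.transl _ y f _ (hΦ.fld μ) hf]

/-- the reflected operator -/
def jo (Ψ : (Fin k → Ix) → Fld D) (a : (Fin k → Ix) → ℂ) (f : Fn) : D → D :=
  op Ψ (tp rj fun μ => conj (a μ)) (cp rj (bar f))

lemma test_jr (hf : GF.IsTest f) : GF.IsTest (cp rj f) :=
  T.test_cp (L' := rj) (fun x => by rw [sim_rj, sim_rj, jr_jr])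
    (fun x => by rw [sim_rj, sim_rj, jr_jr]) hf

lemma jo_cov (R : Rep Q A) (hΨ : Ten Q k Ψ) (a : (Fin k → Ix) → ℂ) (hL : IsLor L) (y : V)
    (hf : GF.IsTest f) (v : D) : jo Ψ a f (Q.U 1 (jL L) (jr y) v) =
      Q.U 1 (jL L) (jr y) (jo Ψ (tp L a) (fun x => f (sim 1 L y x)) v) := by
  rw [jo, jo, op_cov R hΨ _ (isLor_jL hL) _ (test_jr (T.test_bar hf)), T.tp_tp, cm_rj, ← T.tp_tp,
    ((T.t1 Q A R).cj k a L f).1, cp_rj, cp_rj]
  congr 2
  funext x
  rw [← jr_jr x, sim_jL]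
  simp only [jr_jr]
  rfl

variable (c : Ctx D)

/-- the formula for `J X J` holds for the test functions in `O` -/
def Key (O : Set V) : Prop := ∀ (k : ℕ) (Φ Ψ : (Fin k → Ix) → Fld D) a f (v v' : D),
  Ten c.Q k Φ → Ten c.Q k Ψ → Adj Φ Ψ → In O f → c.J v = v' →
    c.J (op Φ a f v : D) = (jo Ψ a f v' : D)

lemma key0 : Key c (Wdg va vb 0) := by
  intro k Φ Ψ a f v v' hΦ hΨ ad hf hv
  have w := c.hN.wal null_va null_vb md_ab
  have t := T.t1 _ _ c.hN.toRep
  have h1 := t.wr _ _ _ null_va null_vb md_ab (t.ib _ _ hf)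
  refine anti c.E (T.afs_of (fun v w => ad a f v w hf.1) (w.aff k Φ _ _ hΦ hf))
    (T.afs_of (fun v w => ad.symm _ _ v w h1.1) (w.aff' k Ψ _ _ hΨ h1)) ?_ hv
  rw [← H49.jw c.hN null_va null_vb md_ab c.E hΦ hΨ ad a hf, (t.cj k _ _ (bar f)).1,
    T.bar_cp, T.bar_bar']
  simp only [Complex.conj_conj]

/-- Reeh and Schlieder -/
lemma rs {O : Set V} (hO : Big (MW O)) (S : Submodule ℂ D) (h0 : c.Q.vac ∈ S)
    (hS : ∀ k Φ a f v, Ten c.Q k Φ → In O f → v ∈ S → op Φ a f v ∈ S) : Dense (S : Set D) := by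
  refine (dense_big (Q := T.tT1 (T.t1 _ _ c.hN.toRep) c.hG) hO).mono fun v hv => ?_
  have hv' : P352.PW (T.tT1 (T.t1 _ _ c.hN.toRep) c.hG) (MW O) v := hv
  induction hv' with
  | vac => exact h0
  | add _ _ h1 h2 => exact S.add_mem (h1 ‹_›) (h2 ‹_›)
  | smul c _ h1 => exact S.smul_mem c (h1 ‹_›)
  | @fld B g v hB hg hw ih =>
    obtain ⟨k, Φ, μ, hΦ, rfl⟩ : T.TF c.Q B := hB
    have := hS k Φ (Pi.single μ 1) (fl g) v hΦ (In_fl.2 hg) (ih hw)
    rwa [T.op_single] at this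

variable {c}

lemma inter {O O' : Set V} (K : Key c O) (hO : Big (MW O')) (hL : IsLor L) (y : V) (h1 : O' ⊆ O)
    (h2 : ∀ x, sim 1 L y x ∈ O' → x ∈ O) (z : Completion D) :
    c.J (Ug c.Q 1 L y z) = Ug c.Q 1 (jL L) (jr y) (c.J z) := by
  have R := c.hN.toRep
  have hJ := isLor_jL hL
  let S : Submodule ℂ D :=
    { carrier := {w | ∃ v v' : D, w = c.Q.U 1 L y v ∧ c.J v = v' ∧
        c.J w = (c.Q.U 1 (jL L) (jr y) v' : D)}
      add_mem' := by
        rintro _ _ ⟨v, v', rfl, a1, a2⟩ ⟨w, w', rfl, b1, b2⟩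
        exact ⟨v + w, v' + w', (U_add one_pos hL y v w).symm,
          by rw [Completion.coe_add, Completion.coe_add, map_add, a1, b1],
          by rw [U_add one_pos hJ, Completion.coe_add, Completion.coe_add, map_add, a2, b2]⟩
      zero_mem' := by
        have e : ∀ {L}, IsLor L → ∀ y, c.Q.U 1 L y 0 = 0 := fun h y => by
          simpa using U_smul (Q := c.Q) one_pos h y 0 0
        exact ⟨0, 0, (e hL y).symm, by rw [Completion.coe_zero, map_zero],
          by rw [e hJ, Completion.coe_zero, map_zero]⟩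
      smul_mem' := by
        rintro t _ ⟨v, v', rfl, a1, a2⟩
        exact ⟨t • v, conj t • v', (U_smul one_pos hL y t v).symm,
          by rw [Completion.coe_smul, Completion.coe_smul, map_smulₛₗ, a1],
          by rw [U_smul one_pos hJ, Completion.coe_smul, Completion.coe_smul, map_smulₛₗ, a2]⟩ }
  have hd : Dense (S : Set D) := by
    refine rs c hO S ⟨_, _, (c.Q.U_vac 1 L y one_pos hL).symm, c.E.J_xi, ?_⟩ ?_
    · rw [c.Q.U_vac _ _ _ one_pos hJ]
      exact c.E.J_xi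
    · rintro k Φ a f _ hΦ hf ⟨v, v', rfl, a1, a2⟩
      obtain ⟨Ψ, hΨ, ad⟩ := T.adj_of R hΦ
      exact ⟨_, _, op_cov R hΦ a hL y hf.1 v, K k Φ Ψ _ _ v v' hΦ hΨ ad (in_sim one_pos hL y hf h2) a1,
        by rw [K k Φ Ψ a f _ _ hΦ hΨ ad ⟨hf.1, hf.2.1, hf.2.2.trans h1⟩ a2, jo_cov R hΨ a hL y hf.1]⟩
  have u : ∀ z, star (Ug c.Q 1 L y) (Ug c.Q 1 L y z) = z := fun z =>
    congrArg (fun T : Completion D →L[ℂ] Completion D => T z) (Grp.uni R 1 L y).1
  have h3 := Continuous.ext_on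
    (Completion.denseRange_coe.dense_image (Completion.continuous_coe D) hd) c.J.continuous
    (g := fun w => Ug c.Q 1 (jL L) (jr y) (c.J (star (Ug c.Q 1 L y) w))) (by fun_prop) ?_
  · rw [congrFun h3, u]
  · rintro _ ⟨_, ⟨v, v', rfl, a1, a2⟩, rfl⟩
    refine a2.trans ?_
    show _ = Ug c.Q 1 (jL L) (jr y) (c.J (star (Ug c.Q 1 L y) (c.Q.U 1 L y v : D)))
    rw [← Grp.coe one_pos hL, u, a1, Grp.coe one_pos hJ]

/-- translations -/
theorem ut1 (y : V) (z : Completion D) :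
    c.J (Ug c.Q 1 GF.one y z) = Ug c.Q 1 GF.one (jr y) (c.J z) := by
  have h := inter (key0 c) (big_two (a := vb) (b := va) (c := va - vb) (M := |al y|)
    (M' := -|be y|) one_pos one_pos (by simp [md_vb]) (by simp [md_va])) H496.isLor_one y ?_ ?_ z
  · rwa [jL_one] at h
  · intro x ⟨a, b⟩
    refine ⟨?_, ?_⟩ <;> rw [sub_zero]
    · linarith [abs_nonneg (be y)]
    · linarith [abs_nonneg (al y)]
  · intro x ⟨a, b⟩
    rw [sim_one'] at a b
    simp only [md_va, md_vb, al_add, be_add] at a b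
    refine ⟨?_, ?_⟩ <;> simp only [md_va, md_vb, sub_zero]
    · linarith [neg_abs_le (be y)]
    · linarith [le_abs_self (al y)]

lemma u_inj {s : ℝ} {y : V} {z w : Completion D} (h : Ug c.Q s L y z = Ug c.Q s L y w) : z = w := by
  have u : ∀ z, star (Ug c.Q s L y) (Ug c.Q s L y z) = z := fun z =>
    congrArg (fun T : Completion D →L[ℂ] Completion D => T z) (Grp.uni c.hN.toRep s L y).1
  rw [← u z, h, u]

lemma key1 : Key c univ := by
  intro k Φ Ψ a f v v' hΦ hΨ ad hf hv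
  have R := c.hN.toRep
  have h1 := H496.isLor_one
  obtain ⟨y, hy⟩ := H49.ex_tr hf.2.1
  have hg := H49.in_tr hf.1 hf.2.1 hy
  have e1 := op_cov R hΦ a h1 y hg.1 v
  have e2 := jo_cov R hΨ a h1 y hg.1 v'
  rw [T.tp_one, H49.tr_sim] at e1 e2
  rw [jL_one] at e2
  refine u_inj (c := c) (s := 1) (L := GF.one) (y := jr y) ?_
  rw [← ut1, Grp.coe one_pos h1, Grp.coe one_pos h1, ← e1, ← e2]
  refine key0 c k Φ Ψ a _ _ _ hΦ hΨ ad hg ?_
  rw [← Grp.coe one_pos h1, ← Grp.coe one_pos h1, ut1, hv]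

lemma dil {s : ℝ} (hs : 0 < s) (z : Completion D) :
    c.J (Ug c.Q s GF.one 0 z) = Ug c.Q s GF.one 0 (c.J z) := by
  have h1 := H496.isLor_one
  have hU := ublock c.hN.toRep
  obtain ⟨W, hW⟩ := hU.lin s GF.one 0 hs h1
  have e : ∀ x, sim s GF.one 0 x = s • x := fun x => by
    rw [Grp.sim_eq, sim_one', add_zero, zero_add]
  have p : ∀ {t : ℝ} {x}, 0 < t → x ∈ Wdg va vb 0 → t • x ∈ Wdg va vb 0 := fun ht ⟨a, b⟩ => by
    rw [sub_zero] at a b
    exact ⟨by rw [sub_zero, md_smul]; exact mul_neg_of_pos_of_neg ht a,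
      by rw [sub_zero, md_smul]; exact mul_pos ht b⟩
  have h := c.hN.img_alg (y := 0) hs h1 (O := Wdg va vb 0) (O' := Wdg va vb 0) (subset_antisymm
    (by rintro _ ⟨x, hx, rfl⟩; exact e x ▸ p hs hx) fun x hx =>
      ⟨_, p (inv_pos.2 hs) hx, by rw [e, smul_inv_smul₀ hs.ne']⟩)
  rw [Ug_apply _ hs h1, Ug_apply _ hs h1, ← hW, ← hW]
  simp only [← hW] at h
  exact ((T.n _ _ c.E W (by rw [hW, hU.vac _ _ _ hs h1]) h.1 h.2).2 z).symm

/-- **`J U(g) = U(j g j) J`** -/
theorem ug (c : Ctx D) (s : ℝ) (L : Ix → V) (a : V) (z : Completion D) (hs : 0 < s)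
    (hL : IsLor L) : c.J (Ug c.Q s L a z) = Ug c.Q s (jL L) (jr a) (c.J z) := by
  have e : ∀ {L}, IsLor L → ∀ a z, Ug c.Q s L a z = Ug c.Q 1 L a (Ug c.Q s GF.one 0 z) := by
    intro L hL a z
    rw [← ContinuousLinearMap.mul_apply, Grp.ug_mul c.hN.toRep _ _ one_pos hs hL H496.isLor_one,
      one_mul, Grp.sim_zero]
    congr 2
    funext m n
    simp [sim, GF.one, bas]
  rw [e hL, e (isLor_jL hL), ← dil hs]
  exact inter (O' := univ) key1 (fun _ => ⟨0, fun _ _ => trivial⟩) hL a subset_rfl (fun _ _ => trivial) _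

theorem ut (c : Ctx D) (y : V) (z : Completion D) : c.J (Ut c.Q y z) = Ut c.Q (jr y) (c.J z) :=
  ut1 y z

end Vale.Agent.P352X.JCa
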