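import Vale.Agent.P352X.R.JC.B1
import Vale.Agent.P352X.R.JC.A1
import Vale.Agent.P352.BW.H268.Tra
import Vale.Agent.P352.BW.H649.Lw
import Vale.Agent.P352.H246.Ext

/-!
# P352X, row JC: wedge duality, and the polynomials in the fields as a core
-/

set_option linter.all false

noncomputable section

open MeasureTheory Filter Topology Set
open scoped ComplexConjugate BoundedContinuousFunction

namespace Vale.Agent.P352X.JCb

open Vale.Agent.P352 Vale.Agent.P352.GF Vale.Agent.P352.BW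
open Vale.Agent.P352.H246 Vale.Agent.P352.H496 Vale.Agent.P352.H755 Vale.Agent.P352.H15
open Vale.Agent.P352.BW.T (Ten op tp bq)
open Vale.Agent.P352.BW.H49 (Adj)
open Vale.Agent.P132 (ModData)
open UniformSpace (Completion)

section hilbert

variable {H : Type*} [NormedAddCommGroup H] [InnerProductSpace ℂ H] [CompleteSpace H]
  {M M' : VonNeumannAlgebra H} {ξ : H}

lemma comm_conj {u : H →L[ℂ] H} (hu : u ∈ unitary (H →L[ℂ] H))
    (h : ∀ X, X ∈ M ↔ u * X * star u ∈ M') (X : H →L[ℂ] H) :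
    X ∈ M.commutant ↔ u * X * star u ∈ M'.commutant := by
  have m : ∀ a b : H →L[ℂ] H, u * a * star u * (u * b * star u) = u * (a * b) * star u :=
    fun a b => by
      calc _ = u * a * (star u * u) * b * star u := by simp only [mul_assoc]
        _ = _ := by rw [hu.1, mul_one, mul_assoc u]
  have s : ∀ a : H →L[ℂ] H, u * (star u * a * u) * star u = a := fun a => by
    calc _ = u * star u * a * (u * star u) := by simp only [mul_assoc]
      _ = _ := by rw [hu.2, mul_one, one_mul]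
  have s' : ∀ a : H →L[ℂ] H, star u * (u * a * star u) * u = a := fun a => by
    calc _ = star u * u * a * (star u * u) := by simp only [mul_assoc]
      _ = _ := by rw [hu.1, mul_one, one_mul]
  simp only [VonNeumannAlgebra.mem_commutant_iff]
  refine ⟨fun hX g hg => ?_, fun hX g hg => ?_⟩
  · rw [← s g] at hg ⊢
    rw [m, m, hX _ ((h _).2 hg)]
  · have := hX _ ((h g).1 hg)
    rw [m, m] at this
    rw [← s' (g * X), this, s']

/-- dense sets of pairs that are tested along the modular flow form a core -/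
theorem core_abs (E : ModData M ξ) {P : Set (H × H)} (h1 : ∀ p ∈ P, Pr M ξ p.1 p.2)
    (h2 : Dense (Prod.fst '' P)) {ψ ψ' : H}
    (h : ∀ p ∈ P, ∀ t, inner ℂ (E.U t p.2) ψ = inner ℂ ψ' (E.U t p.1)) {Z : H →L[ℂ] H}
    (hZ : Z ∈ M) : inner ℂ (star Z ξ) ψ = inner ℂ ψ' (Z ξ) := by
  obtain ⟨χ, c1, c2, c3, -, c5⟩ := H234.exists_chi
  rw [← E.inner_J_J]
  refine tendsto_nhds_unique_of_eventuallyEq
    (tendsto_const_nhds.inner (H234.tendsto_chi E c3 c5 _))
    (tendsto_const_nhds.inner (H234.tendsto_chi E c3 c5 _)) (Eventually.of_forall fun n => ?_)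
  obtain ⟨G, g1, g2, -, g4⟩ := E.exists_fourier (χ n) (c1 n) (c2 n)
  have gi : ∀ v, Integrable fun w => G w • E.U (2 * Real.pi * w) v := fun v =>
    (g2.norm.mul_const ‖v‖).mono'
      (g1.smul ((E.continuous_U v).comp (by fun_prop))).aestronglyMeasurable
      (Eventually.of_forall fun w => by rw [norm_smul, E.norm_U])
  have key := Continuous.ext_on h2
    (f := fun v => inner ℂ (E.J ψ) (E.Th (ModData.gdE (χ n) (c2 n)) v))
    (g := fun v => inner ℂ ψ' (E.Th (χ n) v)) (by fun_prop) (by fun_prop) (by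
      rintro _ ⟨p, hp, rfl⟩
      show inner ℂ _ _ = inner ℂ _ _
      rw [← KDa.pr_kms E (h1 p hp) _ (χ n) fun _ => rfl, g4, g4, ← integral_inner (gi _),
        ← integral_inner (gi _)]
      refine integral_congr_ae (Eventually.of_forall fun w => ?_)
      show inner ℂ _ _ = inner ℂ _ _
      rw [inner_smul_right, inner_smul_right, ← E.J_U, E.inner_J_J, h p hp])
  show inner ℂ _ _ = inner ℂ _ _
  rw [E.kms Z hZ (ModData.gdE (χ n) (c2 n)) (χ n) fun _ => rfl]
  exact congrFun key _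

end hilbert

lemma wdg_r (a b y : V) {s : ℝ} (hs : 0 < s) : Wdg a (s • b) y = Wdg a b y := by
  ext x
  simp only [Wdg, mem_setOf_eq, md_smul_l, mul_pos_iff_of_pos_left hs]

lemma wdg_l (a b y : V) {s : ℝ} (hs : 0 < s) : Wdg (s • a) b y = Wdg a b y := by
  ext x
  simp only [Wdg, mem_setOf_eq, md_smul_l, ← neg_pos, ← mul_neg, mul_pos_iff_of_pos_left hs]

/-- normalization of the null directions -/
lemma norm_ab {a b : V} (hb : IsNull b) (hab : 0 < GF.mdot a b) : ∃ b', IsNull b' ∧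
    GF.mdot a b' = 1 ∧ ∀ y, Wdg a b y = Wdg a b' y ∧ Wdg b a y = Wdg b' a y := by
  have hs := inv_pos.2 hab
  exact ⟨(GF.mdot a b)⁻¹ • b, ⟨by rw [md_smul, md_smul_l, hb.1, mul_zero, mul_zero],
    mul_pos hs hb.2⟩, by rw [md_smul, inv_mul_cancel₀ hab.ne'],
    fun y => ⟨(wdg_r a b y hs).symm, (wdg_l b a y hs).symm⟩⟩

lemma wdg_tr (a b y : V) : sim 1 GF.one y '' Wdg a b 0 = Wdg a b y := by
  ext x
  constructor
  · rintro ⟨z, hz, rfl⟩
    simpa only [Wdg, mem_setOf_eq, sim_one', add_sub_cancel_right, sub_zero] using hz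
  · intro hx
    exact ⟨x - y, by simpa only [Wdg, mem_setOf_eq, sub_zero] using hx,
      by rw [sim_one', sub_add_cancel]⟩

variable {D : Type*} [NormedAddCommGroup D] [InnerProductSpace ℂ D]

/-- **wedge duality** -/
theorem dual (c : Ctx D) (t : T0 c) (a b y : V) (ha : IsNull a) (hb : IsNull b)
    (hab : 0 < GF.mdot a b) : (c.N (Wdg a b y)).commutant = c.N (Wdg b a y) := by
  obtain ⟨b, hb, hab, e⟩ := norm_ab hb hab
  rw [(e y).1, (e y).2]
  have g := t.grp
  have hu := g.uni 1 GF.one y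
  ext X
  have s : Ug c.Q 1 GF.one y * (star (Ug c.Q 1 GF.one y) * X * Ug c.Q 1 GF.one y) *
      star (Ug c.Q 1 GF.one y) = X := by
    simp only [← mul_assoc]
    rw [hu.2, one_mul, mul_assoc, hu.2, mul_one]
  rw [← s, ← wdg_tr a b, ← wdg_tr b a, ← g.alg _ _ _ _ one_pos H496.isLor_one,
    ← comm_conj hu (g.alg _ _ _ _ one_pos H496.isLor_one)]
  exact ((H268.s0 c.hG c.hN).vnet.dual a b _ ha hb hab).symm

lemma al_op {Q : Theory D} {k : ℕ} {Φ Ψ : (Fin k → Ix) → Fld D} (hΦ : Ten Q k Φ) (hΨ : Ten Q k Ψ)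
    (ad : Adj Φ Ψ) (a : (Fin k → Ix) → ℂ) {O : Set V} {f : Fn} (hf : In O f) :
    Al Q O (op Φ a f) (op Ψ (fun μ => conj (a μ)) (bar f)) := by
  classical
  have : ∀ s : Finset (Fin k → Ix), Al Q O (fun v => ∑ μ ∈ s, a μ • Φ μ f v)
      fun v => ∑ μ ∈ s, conj (a μ) • Ψ μ (bar f) v := fun s => by
    induction s using Finset.induction_on with
    | empty => simpa only [Finset.sum_empty] using Al.zero
    | insert μ s hμ ih =>
      simp only [Finset.sum_insert hμ]
      refine Al.add _ _ _ _ (Al.smul _ _ _ (Al.fld _ _ f _ _ (hΦ.fld μ) (hΨ.fld μ)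
        (fun f v w hf => ?_) hf Al.one)) ih
      rw [← T.op_single Φ μ f v, ad _ f v w hf, T.op_single']
  exact this _

/-- `X G = G Y` with a polynomial `Y` in the fields in `O` -/
def Cv (Q : Theory D) (O : Set V) (L : Ix → V) (y : V) (X X' : D → D) : Prop :=
  ∃ Y Y', Al Q O Y Y' ∧ (∀ w, X (Q.U 1 L y w) = Q.U 1 L y (Y w)) ∧
    ∀ w, X' (Q.U 1 L y w) = Q.U 1 L y (Y' w)

/-- **the polynomials in the fields in the opposite wedge detect the pairs** -/
theorem core (c : Ctx D) (t : T0 c) (a b y : V) (ψ ψ' : Completion D) (ha : IsNull a)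
    (hb : IsNull b) (hab : 0 < GF.mdot a b)
    (h : ∀ X X', Al c.Q (Wdg b a y) X X' → inner ℂ ((X' c.Q.vac : D) : Completion D) ψ =
      inner ℂ ψ' ((X c.Q.vac : D) : Completion D)) : Pr (c.N (Wdg a b y)) c.Om ψ ψ' := by
  obtain ⟨b, hb, hab, e⟩ := norm_ab hb hab
  rw [(e y).2] at h
  rw [(e y).1]
  have g := t.grp
  have R := c.hN.toRep
  have t1 := T.t1 _ _ R
  have hba : GF.mdot b a = 1 := by rw [md_comm]; exact hab
  have hL := T.isLor_bq hb ha hba
  have h1 := H496.isLor_one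
  obtain ⟨E⟩ := c.hN.modW hb ha hba
  let S : Submodule ℂ D :=
    { carrier := {v | ∃ X X', Al c.Q (Wdg b a 0) X X' ∧ v = X c.Q.vac ∧
        ∀ s, Cv c.Q (Wdg b a y) (bq b a s) (sim 1 (bq b a s) 0 (-y)) X X'}
      add_mem' := by
        rintro _ _ ⟨X, X', a1, rfl, a2⟩ ⟨Z, Z', b1, rfl, b2⟩
        refine ⟨_, _, Al.add _ _ _ _ a1 b1, rfl, fun s => ?_⟩
        obtain ⟨Y, Y', a3, a4, a5⟩ := a2 s
        obtain ⟨W, W', b3, b4, b5⟩ := b2 s
        exact ⟨_, _, Al.add _ _ _ _ a3 b3, fun w => by simp only [U_add one_pos (hL s), a4, b4],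
          fun w => by simp only [U_add one_pos (hL s), a5, b5]⟩
      zero_mem' := by
        have e : ∀ s y, c.Q.U 1 (bq b a s) y 0 = 0 := fun s y => by
          simpa using U_smul (Q := c.Q) one_pos (hL s) y 0 0
        exact ⟨_, _, Al.zero, rfl, fun s => ⟨_, _, Al.zero, fun _ => (e _ _).symm,
          fun _ => (e _ _).symm⟩⟩
      smul_mem' := by
        rintro r _ ⟨X, X', a1, rfl, a2⟩
        refine ⟨_, _, Al.smul r _ _ a1, rfl, fun s => ?_⟩
        obtain ⟨Y, Y', a3, a4, a5⟩ := a2 s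
        exact ⟨_, _, Al.smul r _ _ a3, fun w => by simp only [U_smul one_pos (hL s), a4],
          fun w => by simp only [U_smul one_pos (hL s), a5]⟩ }
  have hd : Dense (S : Set D) := by
    refine T.r1 (T.t1 _ _) R c.hG b a hb ha hba S
      ⟨_, _, Al.one, rfl, fun s => ⟨_, _, Al.one, fun _ => rfl, fun _ => rfl⟩⟩ ?_
    rintro k Φ α f _ hΦ hf ⟨X, X', a1, rfl, a2⟩
    obtain ⟨Ψ, hΨ, ad⟩ := T.adj_of R hΦ
    refine ⟨_, _, (al_op hΦ hΨ ad α hf).mul a1, rfl, fun s => ?_⟩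
    obtain ⟨Y, Y', a3, a4, a5⟩ := a2 s
    have hg := JCa.in_sim one_pos (hL s) (sim 1 (bq b a s) 0 (-y)) hf (O' := Wdg b a y) (by
      intro x ⟨x1, x2⟩
      have b1 := T.bst_sim hb ha hba (Real.exp (-(2 * Real.pi * s)) - 1)
        (Real.exp (2 * Real.pi * s) - 1)
      have n : ∀ v : V, GF.mdot v (-y) = -GF.mdot v y := fun v => by
        rw [← neg_one_smul ℝ y, md_smul, neg_one_mul]
      rw [sub_zero, HM.sim_at, md_add, bq] at x1 x2
      rw [(b1 _).1, (b1 _).1, add_sub_cancel, n, ← mul_add] at x1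
      rw [(b1 _).2, (b1 _).2, add_sub_cancel, n, ← mul_add] at x2
      exact ⟨by rw [md_sub]; nlinarith [Real.exp_pos (2 * Real.pi * s)],
        by rw [md_sub]; nlinarith [Real.exp_pos (-(2 * Real.pi * s))]⟩)
    refine ⟨_, _, (al_op hΦ hΨ ad (tp (bq b a s) α) hg).mul a3, fun w => ?_, fun w => ?_⟩ <;>
      beta_reduce
    · rw [a4, JCa.op_cov R hΦ _ (hL s) _ hf.1]
    · rw [JCa.op_cov R hΨ _ (hL s) _ (T.test_bar hf.1), a5, (t1.cj k α _ f).1]
      rfl
  let u := Ug c.Q 1 GF.one (-y)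
  have hu : u ∈ unitary _ := g.uni _ _ _
  have eU : ∀ s (w : D), (c.Q.U 1 (bq b a s) (sim 1 (bq b a s) 0 (-y)) w : D) = E.U s (u w) := by
    intro s w
    rw [c.hN.bw c.hG b a s _ E _ hb ha hba (hL s) fun x => sim_bst _ _ _ _ x,
      ← Ug_apply _ one_pos (hL s), ← ContinuousLinearMap.mul_apply,
      g.mul _ _ _ _ _ _ one_pos one_pos (hL s) h1, one_mul, ← g.coe _ _ _ _ one_pos (hL s)]
    congr 2
    funext m n
    simp [sim, GF.one, bas]
  have p0 : Pr (c.N (Wdg a b 0)) c.Om (u ψ) (u ψ') := by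
    intro Z hZ
    rw [dual c t a b 0 ha hb (hab ▸ one_pos)] at hZ
    refine core_abs E (P := {p | ∃ X X', Al c.Q (Wdg b a 0) X X' ∧ p = (↑(X c.Q.vac), ↑(X' c.Q.vac)) ∧
      ∀ s, Cv c.Q (Wdg b a y) (bq b a s) (sim 1 (bq b a s) 0 (-y)) X X'}) ?_ ?_ ?_ hZ
    · rintro _ ⟨X, X', a1, rfl, -⟩ Y hY
      rw [ContinuousLinearMap.star_eq_adjoint, ContinuousLinearMap.adjoint_inner_left]
      exact ((g.affa _ _ _ a1).2 Y hY _ _).symm
    · refine (Completion.denseRange_coe.dense_image (Completion.continuous_coe D) hd).mono ?_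
      rintro _ ⟨_, ⟨X, X', a1, rfl, a2⟩, rfl⟩
      exact ⟨_, ⟨X, X', a1, rfl, a2⟩, rfl⟩
    · rintro _ ⟨X, X', -, rfl, a2⟩ s
      obtain ⟨Y, Y', a3, a4, a5⟩ := a2 (-s)
      have a6 := a4 c.Q.vac
      have a7 := a5 c.Q.vac
      rw [c.Q.U_vac _ _ _ one_pos (hL _)] at a6 a7
      show inner ℂ (E.U s (X' c.Q.vac : D)) _ = inner ℂ _ (E.U s (X c.Q.vac : D))
      rw [a6, a7, eU, eU, E.U_apply_neg, E.U_apply_neg,
        ContinuousLinearMap.inner_map_map_of_mem_unitary hu,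
        ContinuousLinearMap.inner_map_map_of_mem_unitary hu, h _ _ a3]
  have p1 := KDa.pr_map (M' := c.N (Wdg a b y)) (g.uni 1 GF.one y) (g.vac _ _ _)
    (fun X hX => wdg_tr a b y ▸ (g.alg _ _ _ _ one_pos h1 X).1 hX) p0
  have e1 : ∀ z, Ug c.Q 1 GF.one y (u z) = z := fun z => by
    show (Ut c.Q y * Ut c.Q (-y)) z = z
    rw [← g.ut, add_neg_cancel, g.ut0]
    rfl
  rwa [e1, e1] at p1

end Vale.Agent.P352X.JCb
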