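import Vale.Agent.P352X.R.KD.B
import Vale.Agent.P352.BW.H234.ModU
import Vale.Agent.P352.BW.Mb

/-!
# P352X, row JC: the theorem of Borchers, `J S(t) J = S(-t)`
-/

set_option linter.all false

noncomputable section

open MeasureTheory Filter Topology Complex
open scoped ComplexConjugate
open UniformSpace (Completion)

namespace Vale.Agent.P352X.JCb

open Vale.Agent.P352 Vale.Agent.P352.GF Vale.Agent.P352.BW Vale.Agent.P352.H496
open Vale.Agent.P132 (ModData)
open SN (Calc)

section hilbert

variable {H : Type*} [NormedAddCommGroup H] [InnerProductSpace ℂ H] [CompleteSpace H]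

/-- `exp (w k)` on `[0, R]` -/
def ek (R : ℝ) (w : ℂ) : ℝ → ℂ := (Set.Icc 0 R).indicator fun k => cexp (w * k)

lemma norm_ek {R k : ℝ} (w : ℂ) (hk : k ∈ Set.Icc 0 R) : ‖cexp (w * k)‖ ≤ Real.exp (‖w‖ * R) := by
  refine (norm_exp_le_exp_norm _).trans (Real.exp_le_exp.2 ?_)
  rw [norm_mul, norm_real, Real.norm_of_nonneg hk.1]
  exact mul_le_mul_of_nonneg_left hk.2 (norm_nonneg _)

lemma bd_ind {R K : ℝ} {f : ℝ → ℂ} (hf : Measurable f) (h : ∀ k ∈ Set.Icc 0 R, ‖f k‖ ≤ K) :
    SN.Bd ((Set.Icc 0 R).indicator f) :=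
  ⟨hf.indicator measurableSet_Icc, max K 0, fun k => by
    by_cases hk : k ∈ Set.Icc 0 R
    · rw [Set.indicator_of_mem hk]
      exact (h k hk).trans (le_max_left _ _)
    · rw [Set.indicator_of_notMem hk, norm_zero]
      exact le_max_right _ _⟩

lemma bd_ek (R : ℝ) (w : ℂ) : SN.Bd (ek R w) := bd_ind (by fun_prop) fun _ => norm_ek w

lemma diff_ek (C : Calc ℝ H) (R : ℝ) : Differentiable ℂ fun w => C.Phi (ek R w) := by
  intro w
  let g : ℝ → ℂ := (Set.Icc 0 R).indicator fun k => k * cexp (w * k)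
  have hg : SN.Bd g := bd_ind (K := R * Real.exp (‖w‖ * R)) (by fun_prop) fun k hk => by
    rw [norm_mul, norm_real, Real.norm_of_nonneg hk.1]
    exact mul_le_mul hk.2 (norm_ek w hk) (norm_nonneg _) (hk.1.trans hk.2)
  refine HasDerivAt.differentiableAt (f' := C.Phi g) ?_
  rw [hasDerivAt_iff_isLittleO]
  refine Asymptotics.IsBigO.trans_isLittleO ?_
    (Asymptotics.isLittleO_pow_sub_sub w (one_lt_two))
  refine Asymptotics.IsBigO.of_bound (Real.exp (‖w‖ * R) * R ^ 2) ?_
  have h1 : Tendsto (fun u : ℂ => ‖u - w‖ * |R|) (𝓝 w) (𝓝 0) := by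
    simpa using (tendsto_norm_sub_self w).mul_const |R|
  filter_upwards [h1.eventually (gt_mem_nhds one_pos)] with u hu
  rw [← C.smul _ hg, ← C.sub (bd_ek R u) (bd_ek R w),
    ← C.sub ((bd_ek R u).sub (bd_ek R w)) (hg.smul _)]
  refine C.opNorm_le (((bd_ek R u).sub (bd_ek R w)).sub (hg.smul _)) (by positivity) fun k => ?_
  by_cases hk : k ∈ Set.Icc 0 R
  · simp only [ek, g, Set.indicator_of_mem hk]
    have e : cexp (u * k) - cexp (w * k) - (u - w) * (k * cexp (w * k)) =
        cexp (w * k) * (cexp ((u - w) * k) - 1 - (u - w) * k) := by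
      rw [mul_sub, mul_sub, ← Complex.exp_add]
      ring_nf
    have h2 : ‖(u - w) * k‖ ≤ ‖u - w‖ * |R| := by
      rw [norm_mul, norm_real, Real.norm_of_nonneg hk.1]
      exact mul_le_mul_of_nonneg_left (hk.2.trans (le_abs_self R)) (norm_nonneg _)
    rw [e, norm_mul, Real.norm_of_nonneg (by positivity), mul_assoc]
    refine mul_le_mul (norm_ek w hk) ((norm_exp_sub_one_sub_id_le (h2.trans hu.le)).trans ?_)
      (norm_nonneg _) (by positivity)
    rw [← sq_abs R, ← mul_pow, mul_comm |R|]
    exact pow_le_pow_left₀ (norm_nonneg _) h2 2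
  · simp only [ek, g, Set.indicator_of_notMem hk]
    simp only [sub_self, mul_zero, norm_zero]
    positivity

variable {M : VonNeumannAlgebra H} {ξ : H}

/-- **Borchers** -/
theorem borchers (E : ModData M ξ) (C : Calc ℝ H) {W : ℝ → H →L[ℂ] H}
    (hW : ∀ t z, W t z = C.Phi (fun p => cexp (I * (t * p : ℝ))) z)
    (hp : ∀ v, ∀ᵐ p ∂C.nu v, 0 ≤ p) (hξ : ∀ t, W t ξ = ξ)
    (hM : ∀ r, 0 ≤ r → ∀ X ∈ M, W r * X * W (-r) ∈ M)
    (hU : ∀ t r z, E.U t (W r z) = W (Real.exp (-(2 * Real.pi * t)) * r) (E.U t z)) (r : ℝ) (z : H) :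
    E.J (W r z) = W (-r) (E.J z) := by
  have hb : ∀ t : ℝ, SN.Bd fun p : ℝ => cexp (I * (t * p : ℝ)) := fun t =>
    SN.Bd.expI (by fun_prop)
  have adj : ∀ t v w, inner ℂ (W t v) w = inner ℂ v (W (-t) w) := fun t v w => by
    rw [hW, hW, C.adj (hb t)]
    congr 3
    funext p
    rw [← Complex.exp_conj, map_mul, conj_I, conj_ofReal]
    push_cast
    ring_nf
  have st : ∀ t, star (W t) = W (-t) := fun t => by
    ext w
    refine ext_inner_left ℂ fun v => ?_
    rw [ContinuousLinearMap.star_eq_adjoint, ContinuousLinearMap.adjoint_inner_right, adj]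
  have inv : ∀ t v, W (-t) (W t v) = v := fun t v => by
    rw [hW, hW, ← C.mul_apply (hb _) (hb _)]
    have : (fun p : ℝ => cexp (I * (-t * p : ℝ)) * cexp (I * (t * p : ℝ))) = fun _ => 1 := by
      funext p
      rw [← Complex.exp_add, ← Complex.exp_zero]
      push_cast
      ring_nf
    rw [this, C.one]
    rfl
  have ek_W : ∀ (R t : ℝ) y, C.Phi (ek R (I * t)) y = W t (C.Phi (ek R 0) y) := fun R t y => by
    rw [hW, ← C.mul_apply (hb t) (bd_ek R 0)]
    congr 2
    funext k
    by_cases hk : k ∈ Set.Icc 0 R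
    · simp only [ek, Set.indicator_of_mem hk]
      push_cast
      simp [mul_assoc]
    · simp [ek, Set.indicator_of_notMem hk]
  have key : ∀ r, 0 ≤ r → ∀ z, E.J (W r z) = W (-r) (E.J z) := by
    intro r hr
    refine congrFun (Continuous.ext_on E.cyc (E.J.continuous.comp (W r).continuous)
      ((W (-r)).continuous.comp E.J.continuous) ?_)
    rintro _ ⟨Y, hY, rfl⟩
    have hX : star Y ∈ M := star_mem hY
    obtain ⟨k, B, k1, k2, k3, k4⟩ := H234U.exists_k (isMod E) hX
    obtain ⟨k', B', -, k2', k3', k4'⟩ := H234U.exists_k (isMod E) (hM r hr _ hX)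
    refine ext_inner_left ℂ fun y => ?_
    have lim : Tendsto (fun n : ℕ => C.Phi (ek n 0) y) atTop (𝓝 y) := by
      have := C.tendsto_Phi (l := atTop) (F := fun n : ℕ => ek n 0) (fun n => bd_ek n 0)
        (SN.Bd.const 1) (K := 1) (v := y)
        (Eventually.of_forall fun n => Eventually.of_forall fun p =>
          (norm_indicator_le_norm_self _ _).trans (by simp)) (by
          filter_upwards [hp y] with p h0
          refine tendsto_const_nhds.congr' ?_
          filter_upwards [eventually_ge_atTop ⌈p⌉₊] with n hn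
          have : p ∈ Set.Icc (0 : ℝ) n := ⟨h0, (Nat.le_ceil p).trans (by exact_mod_cast hn)⟩
          simp [ek, Set.indicator_of_mem this])
      rwa [C.one] at this
    refine tendsto_nhds_unique_of_eventuallyEq (lim.inner tendsto_const_nhds)
      (lim.inner tendsto_const_nhds) (Eventually.of_forall fun n => ?_)
    let A : ℂ → H := fun u => C.Phi (ek n (-(I * r * cexp (-(2 * Real.pi * u))))) y
    have hA : Differentiable ℂ A := fun u =>
      (((diff_ek C n).comp (by fun_prop)) u).clm_apply (differentiableAt_const y)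
    have hAb : ∃ K, ∀ z ∈ H234U.Sc, ‖A (conj z)‖ ≤ K := by
      refine ⟨1 * ‖y‖, fun z hz => C.norm_le (bd_ek _ _) zero_le_one y
        (Eventually.of_forall fun p => ?_)⟩
      by_cases hk : p ∈ Set.Icc (0 : ℝ) n
      · simp only [ek, Set.indicator_of_mem hk]
        rw [norm_exp, Real.exp_le_one_iff]
        have h1 : 0 ≤ Real.sin (-(2 * Real.pi * z.im)) :=
          Real.sin_nonneg_of_nonneg_of_le_pi (by nlinarith [hz.2, Real.pi_pos])
            (by nlinarith [hz.1, Real.pi_pos])
        have h2 : (-(I * r * cexp (-(2 * Real.pi * conj z))) * p).re =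
            -(r * p * Real.exp (-(2 * Real.pi * z.re)) * Real.sin (-(2 * Real.pi * z.im))) := by
          simp [exp_re, exp_im]
          ring
        rw [h2, neg_nonpos]
        have := hk.1
        positivity
      · simp [ek, Set.indicator_of_notMem hk]
    have h := H234U.uniq (H234U.prodB k1 k2 hA hAb) (k2' (C.Phi (ek n 0) y)) (fun t => ?_)
      (H234U.low_mem 0)
    · have e : -(I * r * cexp (-(2 * Real.pi * conj (((0 : ℝ) : ℂ) - I / 2)))) = I * r := by
        have : -(2 * Real.pi * conj (((0 : ℝ) : ℂ) - I / 2)) = -(Real.pi * I) := by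
          simp [map_div₀, map_ofNat]
          ring
        rw [this, Complex.exp_neg, Complex.exp_pi_mul_I]
        simp
      simp only [A] at h
      rw [e, k4, k4', ek_W, adj, star_mul, star_mul, st, st, neg_neg, star_star] at h
      simp only [ModData.U_zero, ContinuousLinearMap.one_apply, ContinuousLinearMap.mul_apply,
        hξ] at h
      exact h.symm
    · have e : -(I * r * cexp (-(2 * Real.pi * conj (t : ℂ)))) =
          I * (-(Real.exp (-(2 * Real.pi * t)) * r) : ℝ) := by
        rw [conj_ofReal]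
        push_cast
        ring
      simp only [A]
      rw [e, k3, k3', ek_W, adj, neg_neg, ← hU]
      simp only [ContinuousLinearMap.mul_apply, hξ]
  rcases le_total 0 r with h | h
  · exact key r h z
  · have h1 := key (-r) (neg_nonneg.2 h) (W r z)
    rw [inv, neg_neg] at h1
    rw [h1, inv]

end hilbert

variable {D : Type*} [NormedAddCommGroup D] [InnerProductSpace ℂ D]

/-- **`J S(t) = S(-t) J`** -/
theorem S (c : Ctx D) (t : T0 c) (s : ℝ) (z : Completion D) :
    c.J (c.SK s z) = c.SK (-s) (c.J z) := by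
  have g := t.grp
  have u := KDa.ugS g
  have hW : SN.URep fun t z => c.SK t z :=
    ⟨fun v => by rw [u.zero]; rfl, fun x y v => by rw [u.add]; rfl,
      fun x v w => ContinuousLinearMap.inner_map_map_of_mem_unitary (g.S_uni va x g.na) v w, u.cont⟩
  obtain ⟨C, hC⟩ := Br.exists_calc hW
  refine borchers c.E C hC (fun v => ?_) (fun t => c.hS.vac va t g.na) (fun r hr X hX => ?_)
    (fun t r z => ?_) s z
  · refine Calc.ae_nonneg_of_form (r := fun p => p) measurable_id (fun w hw => ?_) v
    exact c.pos va w _ g.na ((Br.gn_iff C measurable_id fun t => hC t w).2 ⟨hw, rfl⟩)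
  · rw [← KDa.rc_zero] at hX ⊢
    have := (g.geo 0 r X le_rfl hr).1 hX
    rw [sub_zero, zero_sub] at this
    exact c.hN.mono _ _ (KDa.rc_sub g le_rfl hr 0) _ this
  · rw [c.bw, c.bw, Bo, ← ContinuousLinearMap.mul_apply,
      g.sc_S _ _ _ (Real.exp_pos _) (Real.exp_pos _), Real.exp_neg (-_), div_inv_eq_mul, mul_comm r]
    rfl

end Vale.Agent.P352X.JCb
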